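import Vale.Agent.P237.Quant.TailData.N85.tailN85N1Part0
import Vale.Agent.P237.Quant.TailData.N85.tailN85N1Part1
import Vale.Agent.P237.Quant.TailData.N85.tailN85N1Part2
import Vale.Agent.P237.Quant.TailData.N85.tailN85N1Part3
import Vale.Agent.P237.Quant.TailData.N85.tailN85N1Part4
import Vale.Agent.P237.Quant.TailData.N85.tailN85N1Part5

/-!
Tail calibration tailN85N1 in dimension 85. The check. Generated data, checked by the kernel.
-/

set_option maxRecDepth 100000
set_option linter.all false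

namespace Vale.Agent.P237.Quant.TailData

open TailCert


/-- The calibration. -/
noncomputable def tailN85N1 : Cfg :=
  tailN85N1Base.withIvals (List.flatten [tailN85N1L0, tailN85N1L1, tailN85N1L2, tailN85N1L3, tailN85N1L4, tailN85N1L5, tailN85N1L6, tailN85N1L7, tailN85N1L8, tailN85N1L9, tailN85N1L10, tailN85N1L11, tailN85N1L12, tailN85N1L13, tailN85N1L14, tailN85N1L15, tailN85N1L16, tailN85N1L17, tailN85N1L18, tailN85N1L19, tailN85N1L20])

theorem tailN85N1_parts : [tailN85N1L0, tailN85N1L1, tailN85N1L2, tailN85N1L3, tailN85N1L4, tailN85N1L5, tailN85N1L6, tailN85N1L7, tailN85N1L8, tailN85N1L9, tailN85N1L10, tailN85N1L11, tailN85N1L12, tailN85N1L13, tailN85N1L14, tailN85N1L15, tailN85N1L16, tailN85N1L17, tailN85N1L18, tailN85N1L19, tailN85N1L20].Forall fun l => tailN85N1Base.partUsed tailN85N1Used l = true := by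
  simp only [List.forall_cons, List.Forall]
  exact ⟨tailN85N1L0_ok, tailN85N1L1_ok, tailN85N1L2_ok, tailN85N1L3_ok, tailN85N1L4_ok, tailN85N1L5_ok, tailN85N1L6_ok, tailN85N1L7_ok, tailN85N1L8_ok, tailN85N1L9_ok, tailN85N1L10_ok, tailN85N1L11_ok, tailN85N1L12_ok, tailN85N1L13_ok, tailN85N1L14_ok, tailN85N1L15_ok, tailN85N1L16_ok, tailN85N1L17_ok, tailN85N1L18_ok, tailN85N1L19_ok, tailN85N1L20_ok⟩

theorem tailN85N1_check : tailN85N1.check = true :=
  Cfg.check_of_parts (by decide +kernel) tailN85N1_parts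

end Vale.Agent.P237.Quant.TailData
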