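import Vale.Agent.P237.Quant.TailData.N85.tailN85P0Base

/-!
Tail calibration tailN85P0 in dimension 85. A part of the intervals. Generated data, checked by the kernel.
-/

set_option maxRecDepth 100000
set_option linter.all false

namespace Vale.Agent.P237.Quant.TailData

open TailCert


/-- An interval. -/
noncomputable def tailN85P0I167 : Ival :=
  Decode.ival 0x800000884920080000800000884923af31fbaf31f855763e50b818b9c0dbaf88d2333da4487a2e20f0cf98a6e8001c2f03f1f3577f971062f8ef593b300000000000000003e79e79e79e79e6e8000000000000000000000000000000000000100000000000800c7650969fee7175f7001bcc0000043ac2c0400004000004347f9d798fc3570dc00000000000000000004c7c5f99349777b6a5900e64a1c2db22933400001990433c6db5b600e8f2d0a36a416026000003721610046e0000049e85f11ffac3cf8028ec26d84b01b86c60ec78a7ae34e20538000000200000000002483124acdc19176db52a0079500000420c30100004000010769e3570dc29ded0000000000000000017d58c9029d6d63691eacd17b5ce1320ac0033ae3c5e3384a48f4334de12a90c312000572ec0b7de291c02309f9896e741e2011d260bc029ba2db8463788bf6dedd54e00000200000000002182dbac02d88aa74b14c0071100000413c581000040000104eff0a77b423f6700000000000000001783d0ed91ae12af3a152f3e03759eb88095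b922d13bfcc9fcc7c738e7cefa0400311b803467dd5102654d645e73bc8104a1f58778b9a85383e6e63ab66d3140000001000000000010016d6adaa2246a52e970036d800002093f008000200000824f6847ece102af80000000000000000990b63b2dde49d114d958f648fc1773c053304e01d73b56fe82f8446f5cd12a801b42337cb3ffc801146a13cf19074301e02768907e9de94166ebdb97f29f7600000080000000000800b24fd63c1c83ee0a2001b6c0000103fb30400010000040fb902055f04e20000000000000000002f3c3a522b6182544d470437a7f6c3be0336b6f4e07f31aff5f6c1fd501f248c0111e1f70146e74006ab1efbd17dc2d80907e177a353eb220521d065113b81f4000004000000000040058c3142f237874c63c00db600000814b202000080000204e7a09c4000cc4e00000000000000000693bc2a5101a00e053236809cb92665028d3a034836c423fcc4b4ab25723e8800dfa4502b6ee7ac0180ce0aee4673e2010fc864789837a9004cbe28814305e800000200000000002002cd3b054e0b33a63ca006db3f86040bb20e4a003194e0000000000000000800002080002000008000000cc4e00000000000000000000000000000000000000000000000000000000000000000000000000001fbbe35cafb299c0000000000000000000000000000000000000000000000014000000400039059369fa1a7c5340f0800ebf6da609d5c80000000000000001000004100004000010000000000002ab08000040000000800000169c9fe93f3ec5fb0900182800001f9dde0800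02000008000000556104e1fc0000000000000000000000000000000000000000000000004450e541f7a8ffbfe72136382e7ef57000000000000000000000000000000000000000000000000000000000000000000000000000000000800b0699317b0a4f6561001b6d0090000048804000000080000000500003fae00000000000000001ffe7fee0000143b0100124ed611dca11cf6420016180000e2408000000400000005fd70f4a400000000000000007ff9ffb8000050ec040046707250f82bc02db40056a0000588020000001000000017a523af140000000000000001ffe7fee0000143b0100112b37f2e1061ff6e20015a80001a0008000000400000005d78ae80d00000000000000007ff9ffb8000050ec04004746fc6fd6c1f9f1140056a0000706020000001000000017406b8fd00000000000000001ffe7fee0000143b010011bc8c55a04eaa68010015a80001e3008000000400000005c7e8df7e00000000000000007ff9ffb8000050ec0400457c5756ac23f239c40056a0000811020000001000000016fbf36abc0000000000000001ffe7fee0000143b010011206e9bc8408f14220015a8000246408000000400000005b55eca7600000000000000007ff9ffb8000050ec04004523c0cac0d5c126980056a0000c3402000000100000001653b2029c0000000000000001ffe7fee0000143b01001153526870c054f1600015a8000400008000000400000001014effff800046d04d996c1e5bae780036a8049c4007c19c03fa35294400014f6ecc02938800f9b2407c00300110418b60c0eeac46edf07dfffffffff9672610207ffffed7e06b02ff081000000b16be11496107fffff984c00e1e3840bd6fd63c942c77901fdeb8aa389b1a83200fe00c0000097ff4011e3cb0b56a2d101e2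

/-- A part of the intervals. -/
noncomputable def tailN85P0L32 : List Ival :=
  [tailN85P0I167]

theorem tailN85P0L32_ok : tailN85P0Base.partUsed tailN85P0Used tailN85P0L32 = true := by
  decide +kernel

end Vale.Agent.P237.Quant.TailData
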